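import Vale.Agent.P262.Defs

namespace Vale.Agent.P262.Avg

open Vale.Agent.P262
open scoped InnerProductSpace

variable {d N : ℕ}

/-- fractional prefix sum `∑_{i < k} x_i v_i` -/
noncomputable def fpre (v : Fin N → EuclideanSpace ℝ (Fin d)) (x : Fin N → ℝ) (k : ℕ) :
    EuclideanSpace ℝ (Fin d) :=
  ∑ i : Fin N, if (i : ℕ) < k then x i • v i else 0

/-- the real sign vector of a signing -/
def sgn (ε : Fin N → ℤˣ) : Fin N → ℝ := fun i => (((ε i : ℤ) : ℝ))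

/-- `q_m(u) = ∑_{t ≤ m} w_t ‖P_t u‖²` -/
noncomputable def qf (v : Fin N → EuclideanSpace ℝ (Fin d)) (w : ℕ → ℝ) (m : ℕ)
    (u : Fin N → ℝ) : ℝ :=
  ∑ t ∈ Finset.range (m + 1), w t * ‖fpre v u t‖ ^ 2

/-- `n_m(u) = ∑_{t ≤ m} w_t ∑_{i < t} u_i²` -/
noncomputable def nf (w : ℕ → ℝ) (m : ℕ) (u : Fin N → ℝ) : ℝ :=
  ∑ t ∈ Finset.range (m + 1), w t * ∑ i : Fin N, if (i : ℕ) < t then u i ^ 2 else 0

/-- the potential `Ψ_m(x) = ∑_{t ≤ m} w_t (‖P_t x‖² + 2 ∑_{i < t} (1 - x_i²))` -/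
noncomputable def Psi (v : Fin N → EuclideanSpace ℝ (Fin d)) (w : ℕ → ℝ) (m : ℕ)
    (x : Fin N → ℝ) : ℝ :=
  ∑ t ∈ Finset.range (m + 1),
    w t * (‖fpre v x t‖ ^ 2 + 2 * ∑ i : Fin N, if (i : ℕ) < t then (1 - x i ^ 2) else 0)

/-- the linear coefficient of `s ↦ Ψ_m(x + s u)` -/
noncomputable def lin (v : Fin N → EuclideanSpace ℝ (Fin d)) (w : ℕ → ℝ) (m : ℕ)
    (x u : Fin N → ℝ) : ℝ :=
  ∑ t ∈ Finset.range (m + 1),
    w t * (2 * ⟪fpre v x t, fpre v u t⟫_ℝ - 4 * ∑ i : Fin N, if (i : ℕ) < t then x i * u i else 0)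

lemma pre_eq_fpre (v : Fin N → EuclideanSpace ℝ (Fin d)) (ε : Fin N → ℤˣ) (k : ℕ) :
    pre v ε k = fpre v (sgn ε) k := rfl

lemma fpre_add_smul (v : Fin N → EuclideanSpace ℝ (Fin d)) (x u : Fin N → ℝ) (s : ℝ) (k : ℕ) :
    fpre v (x + s • u) k = fpre v x k + s • fpre v u k := by
  unfold fpre
  rw [Finset.smul_sum, ← Finset.sum_add_distrib]
  refine Finset.sum_congr rfl fun i _ => ?_
  split_ifs
  · simp [add_smul, mul_smul]
  · simp

/-- `Ψ` is a quadratic polynomial along every line. -/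
lemma Psi_line (v : Fin N → EuclideanSpace ℝ (Fin d)) (w : ℕ → ℝ) (m : ℕ) (x u : Fin N → ℝ)
    (s : ℝ) :
    Psi v w m (x + s • u) = Psi v w m x + s * lin v w m x u + s ^ 2 * (qf v w m u - 2 * nf w m u) := by
  unfold Psi lin qf nf
  rw [Finset.mul_sum, mul_sub, Finset.mul_sum, Finset.mul_sum (a := (2 : ℝ)), Finset.mul_sum,
    ← Finset.sum_sub_distrib, ← Finset.sum_add_distrib, ← Finset.sum_add_distrib]
  refine Finset.sum_congr rfl fun t _ => ?_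
  rw [fpre_add_smul, norm_add_sq_real, norm_smul, inner_smul_right]
  have h1 : (∑ i : Fin N, if (i : ℕ) < t then (1 - (x + s • u) i ^ 2) else 0)
      = (∑ i : Fin N, if (i : ℕ) < t then (1 - x i ^ 2) else 0)
        - 2 * s * (∑ i : Fin N, if (i : ℕ) < t then x i * u i else 0)
        - s ^ 2 * (∑ i : Fin N, if (i : ℕ) < t then u i ^ 2 else 0) := by
    rw [Finset.mul_sum, Finset.mul_sum, ← Finset.sum_sub_distrib, ← Finset.sum_sub_distrib]
    refine Finset.sum_congr rfl fun i _ => ?_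
    split_ifs
    · simp only [Pi.add_apply, Pi.smul_apply, smul_eq_mul]; ring
    · simp
  rw [h1, mul_pow, Real.norm_eq_abs, sq_abs]
  ring

end Vale.Agent.P262.Avg
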