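import Vale.Agent.P262.Avg.DirAbs
import Vale.Agent.P262.Avg.Defs

namespace Vale.Agent.P262.Avg

open scoped InnerProductSpace

variable {d N : ℕ}

/-- the weight `c_i = ∑_{i < t ≤ m} w_t` -/
noncomputable def cw (w : ℕ → ℝ) (m : ℕ) (i : ℕ) : ℝ :=
  ∑ t ∈ Finset.range (m + 1), if i < t then w t else 0

lemma nf_eq (w : ℕ → ℝ) (m : ℕ) (u : Fin N → ℝ) :
    nf w m u = ∑ i : Fin N, cw w m i * u i ^ 2 := by
  unfold nf cw
  simp_rw [Finset.mul_sum, Finset.sum_mul]
  rw [Finset.sum_comm]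
  refine Finset.sum_congr rfl fun i _ => Finset.sum_congr rfl fun t _ => ?_
  split_ifs <;> simp

lemma cw_pos (w : ℕ → ℝ) (hw : ∀ t, 0 < w t) (m i : ℕ) (hi : i < m) : 0 < cw w m i := by
  unfold cw
  apply Finset.sum_pos'
  · intro t _
    split_ifs
    · exact (hw t).le
    · exact le_rfl
  · exact ⟨i + 1, by simp; omega, by simp [hw]⟩

lemma fpre_single (v : Fin N → EuclideanSpace ℝ (Fin d)) (i : Fin N) (t : ℕ) :
    fpre v (Pi.single i 1) t = if (i : ℕ) < t then v i else 0 := by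
  classical
  unfold fpre
  rw [Finset.sum_eq_single i]
  · simp
  · intro j _ hj
    simp [Pi.single_eq_of_ne hj]
  · simp

lemma qf_single_le (v : Fin N → EuclideanSpace ℝ (Fin d)) (hv : ∀ i, ‖v i‖ ≤ 1) (w : ℕ → ℝ)
    (hw : ∀ t, 0 ≤ w t) (m : ℕ) (i : Fin N) :
    qf v w m (Pi.single i 1) ≤ cw w m i := by
  unfold qf cw
  refine Finset.sum_le_sum fun t _ => ?_
  rw [fpre_single]
  split_ifs
  · have : ‖v i‖ ^ 2 ≤ 1 := by
      have h0 := norm_nonneg (v i)
      nlinarith [hv i]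
    nlinarith [hw t]
  · simp

/-- extension by zero -/
noncomputable def ext0 (A : Finset (Fin N)) : (A → ℝ) →ₗ[ℝ] (Fin N → ℝ) where
  toFun := fun y i => if h : i ∈ A then y ⟨i, h⟩ else 0
  map_add' := by
    intro a b; funext i
    by_cases h : i ∈ A <;> simp [h]
  map_smul' := by
    intro r a; funext i
    by_cases h : i ∈ A <;> simp [h]

/-- `fpre` as a linear map in `x` -/
noncomputable def fpreL (v : Fin N → EuclideanSpace ℝ (Fin d)) (k : ℕ) :
    (Fin N → ℝ) →ₗ[ℝ] EuclideanSpace ℝ (Fin d) where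
  toFun := fun x => fpre v x k
  map_add' := by
    intro a b
    have := fpre_add_smul v a b 1 k
    simpa using this
  map_smul' := by
    intro r a
    have := fpre_add_smul v 0 a r k
    have h0 : fpre v (0 : Fin N → ℝ) k = 0 := by simp [fpre]
    simpa [h0] using this

theorem exists_dir (v : Fin N → EuclideanSpace ℝ (Fin d)) (hv : ∀ i, ‖v i‖ ≤ 1) (w : ℕ → ℝ)
    (hw : ∀ t, 0 < w t) (m : ℕ) (A : Finset (Fin N)) (hA : ∀ i ∈ A, (i : ℕ) < m) (hd : 1 ≤ d)
    (hcard : 2 * d ≤ A.card) :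
    ∃ u : Fin N → ℝ, u ≠ 0 ∧ (∀ i, i ∉ A → u i = 0) ∧ (∑ i, u i • v i = 0) ∧
      qf v w m u ≤ 2 * nf w m u := by
  classical
  let T : (A → ℝ) →ₗ[ℝ] PiLp 2 (fun _ : Fin (m + 1) => EuclideanSpace ℝ (Fin d)) :=
    (WithLp.linearEquiv 2 ℝ (Fin (m + 1) → EuclideanSpace ℝ (Fin d))).symm.toLinearMap ∘ₗ
      LinearMap.pi (fun t : Fin (m + 1) => Real.sqrt (w t) • (fpreL v t ∘ₗ ext0 A))
  have hTn : ∀ y, ‖T y‖ ^ 2 = qf v w m (ext0 A y) := by
    intro y
    rw [PiLp.norm_sq_eq_of_L2]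
    unfold qf
    rw [Finset.sum_range]
    refine Finset.sum_congr rfl fun t _ => ?_
    have : (T y) t = Real.sqrt (w t) • fpre v (ext0 A y) t := rfl
    rw [this, norm_smul, mul_pow, Real.norm_eq_abs, sq_abs, Real.sq_sqrt (hw t).le]
  let V : (A → ℝ) →ₗ[ℝ] EuclideanSpace ℝ (Fin d) := fpreL v N ∘ₗ ext0 A
  have hV : ∀ y, V y = ∑ i, (ext0 A y) i • v i := by
    intro y
    show fpre v (ext0 A y) N = _
    unfold fpre
    refine Finset.sum_congr rfl fun i _ => ?_
    simp [i.2]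
  have hext_single : ∀ i : A, ext0 A (Pi.single i 1) = Pi.single (i : Fin N) 1 := by
    intro i
    funext j
    show (if h : j ∈ A then (Pi.single i (1 : ℝ) : A → ℝ) ⟨j, h⟩ else 0) = _
    by_cases hj : j ∈ A
    · rw [dif_pos hj]
      by_cases hji : j = i
      · subst hji; simp
      · have : (⟨j, hj⟩ : A) ≠ i := fun h => hji (congrArg Subtype.val h)
        rw [Pi.single_eq_of_ne this, Pi.single_eq_of_ne hji]
    · rw [dif_neg hj]
      have hji : j ≠ i := fun h => hj (h ▸ i.2)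
      rw [Pi.single_eq_of_ne hji]
  obtain ⟨y, hy0, hyV, hy⟩ := dir_abstract (fun i : A => cw w m (i : Fin N))
    (fun i => cw_pos w hw m _ (hA i i.2)) T V
    (fun i => by
      rw [hTn, hext_single]
      exact qf_single_le v hv w (fun t => (hw t).le) m i)
    (by simpa using hd) (by simpa using hcard)
  refine ⟨ext0 A y, ?_, ?_, ?_, ?_⟩
  · intro h0
    apply hy0
    funext i
    have := congrFun h0 (i : Fin N)
    have h2 : ext0 A y (i : Fin N) = y i := by
      show (if h : (i : Fin N) ∈ A then y ⟨i, h⟩ else 0) = _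
      rw [dif_pos i.2]
    rw [h2] at this
    simpa using this
  · intro i hi
    show (if h : i ∈ A then y ⟨i, h⟩ else 0) = _
    rw [dif_neg hi]
  · rw [← hV]; exact hyV
  · rw [← hTn, nf_eq]
    refine le_trans hy (le_of_eq ?_)
    congr 1
    have : ∑ i : Fin N, cw w m i * (ext0 A y) i ^ 2
        = ∑ i ∈ A, cw w m i * (ext0 A y) i ^ 2 := by
      symm
      apply Finset.sum_subset (Finset.subset_univ _)
      intro i _ hi
      have : ext0 A y i = 0 := by
        show (if h : i ∈ A then y ⟨i, h⟩ else 0) = _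
        rw [dif_neg hi]
      simp [this]
    rw [this, ← Finset.sum_coe_sort A]
    refine Finset.sum_congr rfl fun i _ => ?_
    have h2 : ext0 A y (i : Fin N) = y i := by
      show (if h : (i : Fin N) ∈ A then y ⟨i, h⟩ else 0) = _
      rw [dif_pos i.2]
    rw [h2]

end Vale.Agent.P262.Avg
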