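import Vale.Agent.P262.Avg.HS

namespace Vale.Agent.P262.Avg

open scoped InnerProductSpace

/-- abstract direction lemma (trace argument) -/
theorem dir_abstract {ι : Type*} [Fintype ι] [DecidableEq ι] {H G : Type*}
    [NormedAddCommGroup H] [InnerProductSpace ℝ H] [FiniteDimensional ℝ H]
    [AddCommGroup G] [Module ℝ G] [FiniteDimensional ℝ G]
    (c : ι → ℝ) (hc : ∀ i, 0 < c i) (T : (ι → ℝ) →ₗ[ℝ] H) (V : (ι → ℝ) →ₗ[ℝ] G)
    (hT : ∀ i, ‖T (Pi.single i 1)‖ ^ 2 ≤ c i) (hd : 1 ≤ Module.finrank ℝ G)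
    (hcard : 2 * Module.finrank ℝ G ≤ Fintype.card ι) :
    ∃ u : ι → ℝ, u ≠ 0 ∧ V u = 0 ∧ ‖T u‖ ^ 2 ≤ 2 * ∑ i, c i * u i ^ 2 := by
  classical
  set d := Module.finrank ℝ G with hdd
  -- the diagonal scaling
  let D : EuclideanSpace ℝ ι →ₗ[ℝ] (ι → ℝ) :=
    { toFun := fun y i => y i / Real.sqrt (c i)
      map_add' := by intro a b; funext i; simp [add_div]
      map_smul' := by intro r a; funext i; simp [mul_div_assoc] }
  have hDapp : ∀ y i, D y i = y i / Real.sqrt (c i) := fun _ _ => rfl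
  have hsq : ∀ i, 0 < Real.sqrt (c i) := fun i => Real.sqrt_pos.mpr (hc i)
  let K : Submodule ℝ (EuclideanSpace ℝ ι) := LinearMap.ker (V ∘ₗ D)
  have hrn := LinearMap.finrank_range_add_finrank_ker (V ∘ₗ D)
  have hrange : Module.finrank ℝ (LinearMap.range (V ∘ₗ D)) ≤ d := Submodule.finrank_le _
  have hE : Module.finrank ℝ (EuclideanSpace ℝ ι) = Fintype.card ι := finrank_euclideanSpace
  have hKdim : Fintype.card ι ≤ 2 * Module.finrank ℝ K := by
    have : Module.finrank ℝ K = Module.finrank ℝ (LinearMap.ker (V ∘ₗ D)) := rfl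
    omega
  have hKpos : 0 < Module.finrank ℝ K := by omega
  obtain ⟨y, hyK, hy0, hy⟩ := exists_small_of_hs (EuclideanSpace.basisFun ι ℝ) (T ∘ₗ D) K hKpos
  have hsum : ∑ i, ‖(T ∘ₗ D) (EuclideanSpace.basisFun ι ℝ i)‖ ^ 2 ≤ Fintype.card ι := by
    have : ∀ i, ‖(T ∘ₗ D) (EuclideanSpace.basisFun ι ℝ i)‖ ^ 2 ≤ 1 := by
      intro i
      have h1 : D (EuclideanSpace.basisFun ι ℝ i) = (1 / Real.sqrt (c i)) • Pi.single i (1 : ℝ) := by
        funext j
        rw [hDapp]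
        by_cases hji : j = i
        · subst hji; simp
        · simp [hji]
      rw [LinearMap.comp_apply, h1, map_smul, norm_smul, mul_pow, Real.norm_eq_abs, sq_abs,
        div_pow, one_pow, Real.sq_sqrt (hc i).le]
      rw [div_mul_eq_mul_div, one_mul, div_le_one (hc i)]
      exact hT i
    calc ∑ i, ‖(T ∘ₗ D) (EuclideanSpace.basisFun ι ℝ i)‖ ^ 2 ≤ ∑ _i : ι, (1 : ℝ) :=
          Finset.sum_le_sum fun i _ => this i
      _ = Fintype.card ι := by simp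
  refine ⟨D y, ?_, ?_, ?_⟩
  · intro h0
    apply hy0
    ext i
    have := congrFun h0 i
    rw [hDapp] at this
    have h2 := (div_eq_zero_iff.mp this).resolve_right (hsq i).ne'
    simpa using h2
  · exact hyK
  · have hn : ∑ i, c i * D y i ^ 2 = ‖y‖ ^ 2 := by
      rw [EuclideanSpace.norm_sq_eq]
      refine Finset.sum_congr rfl fun i _ => ?_
      rw [hDapp, div_pow, Real.sq_sqrt (hc i).le, Real.norm_eq_abs, sq_abs]
      field_simp [(hc i).ne']
    rw [hn]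
    have hk : (0 : ℝ) < Module.finrank ℝ K := by exact_mod_cast hKpos
    have hk2 : (Fintype.card ι : ℝ) ≤ 2 * Module.finrank ℝ K := by exact_mod_cast hKdim
    have h3 : (Module.finrank ℝ K : ℝ) * ‖T (D y)‖ ^ 2 ≤ (Module.finrank ℝ K : ℝ) * (2 * ‖y‖ ^ 2) := by
      calc (Module.finrank ℝ K : ℝ) * ‖T (D y)‖ ^ 2
          ≤ (∑ i, ‖(T ∘ₗ D) (EuclideanSpace.basisFun ι ℝ i)‖ ^ 2) * ‖y‖ ^ 2 := hy
        _ ≤ (Fintype.card ι : ℝ) * ‖y‖ ^ 2 := by gcongr
        _ ≤ (2 * Module.finrank ℝ K) * ‖y‖ ^ 2 := by gcongr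
        _ = (Module.finrank ℝ K : ℝ) * (2 * ‖y‖ ^ 2) := by ring
    exact le_of_mul_le_mul_left h3 hk

end Vale.Agent.P262.Avg
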