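import Mathlib

namespace Vale.Agent.P262.Avg

/-- finite minimax (LP duality): if every nonnegative weighting of the columns admits a row whose
weighted average is at most `β`, then some mixture of the rows is at most `β` in every column. -/
theorem minimax_finite {Ω T : Type*} [Fintype Ω] [Fintype T] [DecidableEq T]
    (a : Ω → T → ℝ) (β : ℝ)
    (h : ∀ w : T → ℝ, (∀ t, 0 ≤ w t) → ∃ ω, ∑ t, w t * a ω t ≤ β * ∑ t, w t) :
    ∃ p : Ω → ℝ, (∀ ω, 0 ≤ p ω) ∧ ∑ ω, p ω = 1 ∧ ∀ t, ∑ ω, p ω * a ω t ≤ β := by
  classical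
  let L : (Ω → ℝ) →ₗ[ℝ] (T → ℝ) := Fintype.linearCombination ℝ a
  have hL : ∀ p t, L p t = ∑ ω, p ω * a ω t := by
    intro p t
    simp [L, Fintype.linearCombination_apply, Finset.sum_apply]
  let S : Set (T → ℝ) := L '' stdSimplex ℝ Ω
  let D : Set (T → ℝ) := {y | ∀ t, y t ≤ β}
  have hS1 : Convex ℝ S := (convex_stdSimplex ℝ Ω).linear_image L
  have hS2 : IsCompact S :=
    (isCompact_stdSimplex ℝ Ω).image (LinearMap.continuous_of_finiteDimensional L)
  have hD1 : Convex ℝ D := by
    intro x hx y hy s r hs hr hsr t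
    have h1 := hx t
    have h2 := hy t
    simp only [Pi.add_apply, Pi.smul_apply, smul_eq_mul]
    calc s * x t + r * y t ≤ s * β + r * β := by gcongr
      _ = β := by rw [← add_mul, hsr, one_mul]
  have hD2 : IsClosed D := by
    have : D = ⋂ t, {y : T → ℝ | y t ≤ β} := by
      ext y; simp [D]
    rw [this]
    exact isClosed_iInter fun t => isClosed_le (continuous_apply t) continuous_const
  by_cases hdisj : Disjoint S D
  · exfalso
    obtain ⟨f, u, r, hfS, hur, hfD⟩ := geometric_hahn_banach_compact_closed hS1 hS2 hD1 hD2 hdisj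
    have hfsum : ∀ y : T → ℝ, f y = ∑ t, y t * f (Pi.single t 1) := by
      intro y
      have := (f : (T → ℝ) →ₗ[ℝ] ℝ).pi_apply_eq_sum_univ y
      simp only [ContinuousLinearMap.coe_coe, smul_eq_mul] at this
      rw [this]
      refine Finset.sum_congr rfl fun t _ => ?_
      congr 2
      funext j
      by_cases hj : t = j
      · subst hj; simp
      · simp [hj, Pi.single_eq_of_ne (Ne.symm hj)]
    have hneg : ∀ t, f (Pi.single t 1) ≤ 0 := by
      intro t
      by_contra hpos
      push Not at hpos
      -- take b = β·1 - λ e_t with λ large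
      set c0 := f (fun _ => β) with hc0
      set lam := (c0 - r) / f (Pi.single t 1) with hlam
      have hc0r : r < c0 := hfD _ (fun _ => le_rfl)
      have hlam0 : 0 ≤ lam := div_nonneg (by linarith) hpos.le
      have hb : ((fun _ => β) - lam • (Pi.single t 1 : T → ℝ)) ∈ D := by
        intro j
        simp only [Pi.sub_apply, Pi.smul_apply, smul_eq_mul]
        have : 0 ≤ (Pi.single t 1 : T → ℝ) j := by
          by_cases hj : j = t
          · subst hj; simp
          · simp [Pi.single_eq_of_ne hj]
        nlinarith [mul_nonneg hlam0 this]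
      have := hfD _ hb
      rw [map_sub, map_smul, smul_eq_mul, hlam, div_mul_cancel₀ _ hpos.ne'] at this
      linarith
    obtain ⟨ω, hω⟩ := h (fun t => - f (Pi.single t 1)) (fun t => by linarith [hneg t])
    have h1 : f (a ω) < u := by
      apply hfS
      refine ⟨Pi.single ω 1, single_mem_stdSimplex ℝ ω, ?_⟩
      funext t
      rw [hL]
      rw [Finset.sum_eq_single ω]
      · simp
      · intro j _ hj
        simp [Pi.single_eq_of_ne hj]
      · simp
    have h2 : r < f (fun _ => β) := hfD _ (fun _ => le_rfl)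
    rw [hfsum] at h1 h2
    have h3 : ∑ t, -f (Pi.single t 1) * a ω t = - ∑ t, a ω t * f (Pi.single t 1) := by
      rw [← Finset.sum_neg_distrib]
      exact Finset.sum_congr rfl fun t _ => by ring
    have h4 : β * ∑ t, -f (Pi.single t 1) = - ∑ t : T, β * f (Pi.single t 1) := by
      rw [Finset.mul_sum, ← Finset.sum_neg_distrib]
      exact Finset.sum_congr rfl fun t _ => by ring
    rw [h3, h4] at hω
    linarith
  · rw [Set.not_disjoint_iff] at hdisj
    obtain ⟨y, ⟨p, hp, rfl⟩, hyD⟩ := hdisj
    refine ⟨p, hp.1, hp.2, fun t => ?_⟩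
    rw [← hL]
    exact hyD t

end Vale.Agent.P262.Avg
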