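import Mathlib

namespace Vale.Agent.P262.Avg

open scoped InnerProductSpace

variable {d N : ℕ}

/-- `S_k θ = ∑_{i < k} ⟪v_i, θ⟫ a_i` -/
noncomputable def Sop (v : Fin N → EuclideanSpace ℝ (Fin d)) (a : Fin N → EuclideanSpace ℝ (Fin N))
    (k : ℕ) (θ : EuclideanSpace ℝ (Fin d)) : EuclideanSpace ℝ (Fin N) :=
  ∑ i : Fin N, if (i : ℕ) < k then ⟪v i, θ⟫_ℝ • a i else 0

lemma Sop_sub_smul (v : Fin N → EuclideanSpace ℝ (Fin d)) (a : Fin N → EuclideanSpace ℝ (Fin N))
    (k : ℕ) (θ η : EuclideanSpace ℝ (Fin d)) (c : ℝ) :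
    Sop v a k (θ - c • η) = Sop v a k θ - c • Sop v a k η := by
  unfold Sop
  rw [Finset.smul_sum, ← Finset.sum_sub_distrib]
  refine Finset.sum_congr rfl fun i _ => ?_
  split_ifs
  · rw [inner_sub_right, inner_smul_right, sub_smul, mul_smul]
  · simp

lemma Sop_succ (v : Fin N → EuclideanSpace ℝ (Fin d)) (a : Fin N → EuclideanSpace ℝ (Fin N))
    (k : ℕ) (hk : k < N) (θ : EuclideanSpace ℝ (Fin d)) :
    Sop v a (k + 1) θ = Sop v a k θ + ⟪v ⟨k, hk⟩, θ⟫_ℝ • a ⟨k, hk⟩ := by
  classical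
  unfold Sop
  have : ∀ i : Fin N, (if (i : ℕ) < k + 1 then ⟪v i, θ⟫_ℝ • a i else 0)
      = (if (i : ℕ) < k then ⟪v i, θ⟫_ℝ • a i else 0)
        + (if i = ⟨k, hk⟩ then ⟪v i, θ⟫_ℝ • a i else 0) := by
    intro i
    by_cases h1 : (i : ℕ) < k
    · have h2 : i ≠ ⟨k, hk⟩ := fun h => by rw [h] at h1; simp at h1
      simp [h1, h2, Nat.lt_succ_of_lt h1]
    · by_cases h2 : i = ⟨k, hk⟩
      · subst h2; simp
      · have h3 : ¬ (i : ℕ) < k + 1 := by
          intro h
          apply h2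
          apply Fin.ext
          simp only
          omega
        simp [h1, h2, h3]
  simp_rw [this]
  rw [Finset.sum_add_distrib]
  simp

lemma Sop_congr (v : Fin N → EuclideanSpace ℝ (Fin d)) (a a' : Fin N → EuclideanSpace ℝ (Fin N))
    (k : ℕ) (h : ∀ i : Fin N, (i : ℕ) < k → a i = a' i) (θ : EuclideanSpace ℝ (Fin d)) :
    Sop v a k θ = Sop v a' k θ := by
  unfold Sop
  refine Finset.sum_congr rfl fun i _ => ?_
  split_ifs with hi
  · rw [h i hi]
  · rfl

lemma Sop_coord (v : Fin N → EuclideanSpace ℝ (Fin d)) (a : Fin N → EuclideanSpace ℝ (Fin N))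
    (k : ℕ) (h : ∀ i : Fin N, (i : ℕ) < k → ∀ j : Fin N, k ≤ (j : ℕ) → a i j = 0)
    (θ : EuclideanSpace ℝ (Fin d)) (j : Fin N) (hj : k ≤ (j : ℕ)) : Sop v a k θ j = 0 := by
  unfold Sop
  rw [show (∑ i : Fin N, if (i : ℕ) < k then ⟪v i, θ⟫_ℝ • a i else 0) j
      = ∑ i : Fin N, (if (i : ℕ) < k then ⟪v i, θ⟫_ℝ • a i else 0) j by simp]
  apply Finset.sum_eq_zero
  intro i _
  split_ifs with hi
  · simp [h i hi j hj]
  · simp

/-- stage `k` of the construction -/
lemma stage (v : Fin N → EuclideanSpace ℝ (Fin d)) (hv : ∀ i, ‖v i‖ ≤ 1) (k : ℕ) (hk : k ≤ N) :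
    ∃ a : Fin N → EuclideanSpace ℝ (Fin N), (∀ i, ‖a i‖ = 1) ∧
      (∀ i : Fin N, (i : ℕ) < k → ∀ j : Fin N, k ≤ (j : ℕ) → a i j = 0) ∧
      ∀ t ≤ k, ∀ θ, ‖Sop v a t θ‖ ≤ ‖θ‖ := by
  classical
  induction k with
  | zero =>
    refine ⟨fun i => EuclideanSpace.single i 1, fun i => by simp, fun i hi => by omega, ?_⟩
    intro t ht θ
    have : t = 0 := by omega
    subst this
    simp [Sop]
  | succ k ih =>
    obtain ⟨a, ha1, ha2, ha3⟩ := ih (by omega)
    have hkN : k < N := by omega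
    set κ : Fin N := ⟨k, hkN⟩ with hκ
    set b := Sop v a k (v κ) with hb
    have hbn : ‖b‖ ≤ 1 := le_trans (ha3 k le_rfl (v κ)) (hv κ)
    have hbn2 : ‖b‖ ^ 2 ≤ 1 := by nlinarith [norm_nonneg b]
    set c := Real.sqrt (1 - ‖b‖ ^ 2) with hc
    have hc2 : c ^ 2 = 1 - ‖b‖ ^ 2 := Real.sq_sqrt (by linarith)
    set e : EuclideanSpace ℝ (Fin N) := EuclideanSpace.single κ 1 with he
    have hSe : ∀ θ, ⟪Sop v a k θ, e⟫_ℝ = 0 := by
      intro θ
      rw [he, EuclideanSpace.inner_single_right]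
      simp [Sop_coord v a k ha2 θ κ le_rfl]
    set anew : EuclideanSpace ℝ (Fin N) := -b + c • e with hanew
    have hen : ‖e‖ = 1 := by simp [he]
    have hanorm : ‖anew‖ = 1 := by
      have : ‖anew‖ ^ 2 = 1 := by
        rw [hanew, norm_add_sq_real, norm_neg, inner_neg_left, inner_smul_right, hSe, norm_smul,
          mul_pow, hen, Real.norm_eq_abs, sq_abs, hc2]
        ring
      have h0 := norm_nonneg anew
      nlinarith
    refine ⟨Function.update a κ anew, ?_, ?_, ?_⟩
    · intro i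
      by_cases hi : i = κ
      · subst hi; simp [hanorm]
      · simp [Function.update_of_ne hi, ha1]
    · intro i hi j hj
      by_cases hik : i = κ
      · rw [hik, Function.update_self, hanew]
        have h1 : b j = 0 := Sop_coord v a k ha2 _ j (by omega)
        have h2 : e j = 0 := by
          rw [he, PiLp.single_apply, if_neg]
          intro h
          rw [h] at hj
          simp [hκ] at hj
        simp [h1, h2]
      · rw [Function.update_of_ne hik]
        have : (i : ℕ) < k := by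
          have : (i : ℕ) ≠ k := fun h => hik (Fin.ext h)
          omega
        exact ha2 i this j (by omega)
    · intro t ht θ
      have hcongr : ∀ s ≤ k, ∀ η, Sop v (Function.update a κ anew) s η = Sop v a s η := by
        intro s hs η
        apply Sop_congr
        intro i hi
        have : i ≠ κ := fun h => by rw [h] at hi; simp [hκ] at hi; omega
        rw [Function.update_of_ne this]
      rcases Nat.lt_or_ge t (k + 1) with h | h
      · rw [hcongr t (by omega)]
        exact ha3 t (by omega) θ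
      · have : t = k + 1 := by omega
        subst this
        rw [Sop_succ v _ k hkN, hcongr k le_rfl, ← hκ, Function.update_self]
        set g := ⟪v κ, θ⟫_ℝ with hg
        have h1 := ha3 k le_rfl (θ - g • v κ)
        rw [Sop_sub_smul] at h1
        have h2 : ‖Sop v a k θ - g • b‖ ^ 2 ≤ ‖θ - g • v κ‖ ^ 2 := by
          have := norm_nonneg (Sop v a k θ - g • b)
          nlinarith
        rw [norm_sub_sq_real, norm_sub_sq_real, inner_smul_right, inner_smul_right, norm_smul,
          norm_smul, mul_pow, mul_pow, Real.norm_eq_abs, sq_abs] at h2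
        have hg' : ⟪θ, v κ⟫_ℝ = g := by rw [hg, real_inner_comm]
        rw [hg'] at h2
        have h3 : ‖Sop v a k θ + g • anew‖ ^ 2 ≤ ‖θ‖ ^ 2 := by
          rw [norm_add_sq_real, inner_smul_right, norm_smul, mul_pow, hanorm, Real.norm_eq_abs,
            sq_abs, hanew, inner_add_right, inner_neg_right, inner_smul_right, hSe]
          have hv2 : ‖v κ‖ ^ 2 ≤ 1 := by nlinarith [norm_nonneg (v κ), hv κ]
          nlinarith [sq_nonneg g, sq_nonneg ‖b‖, mul_nonneg (sq_nonneg g) (sq_nonneg ‖b‖),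
            mul_nonneg (sq_nonneg g) (sub_nonneg.mpr hv2)]
        exact abs_le_of_sq_le_sq' h3 (norm_nonneg _) |>.2

end Vale.Agent.P262.Avg
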