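import Vale.Agent.P262.Avg.Walk
import Vale.Agent.P262.Avg.Minimax
import Vale.Agent.P262.Avg.Vector

namespace Vale.Agent.P262.Avg

open Vale.Agent.P262
open scoped InnerProductSpace

variable {d N : ℕ}

/-- Weighted mean-square theorem, nonnegative weights, every dimension. -/
theorem weighted (v : Fin N → EuclideanSpace ℝ (Fin d)) (hv : ∀ i, ‖v i‖ ≤ 1) (w : ℕ → ℝ)
    (hw : ∀ t, 0 ≤ w t) :
    ∃ ε : Fin N → ℤˣ, ∑ t ∈ Finset.range (N + 1), w t * ‖pre v ε t‖ ^ 2
      ≤ 4 * d * ∑ t ∈ Finset.range (N + 1), w t := by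
  classical
  rcases Nat.eq_zero_or_pos d with hd | hd
  · subst hd
    refine ⟨fun _ => 1, ?_⟩
    have : ∀ t, ‖pre v (fun _ => 1) t‖ = 0 := by
      intro t
      have : pre v (fun _ => 1) t = 0 := Subsingleton.elim _ _
      rw [this, norm_zero]
    simp [this]
  · by_contra hcon
    push Not at hcon
    set W := ∑ t ∈ Finset.range (N + 1), w t with hW
    let gap : (Fin N → ℤˣ) → ℝ := fun ε =>
      ∑ t ∈ Finset.range (N + 1), w t * ‖pre v ε t‖ ^ 2 - 4 * d * W
    obtain ⟨ε0, -, hmin⟩ := Finset.exists_min_image (Finset.univ : Finset (Fin N → ℤˣ)) gap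
      Finset.univ_nonempty
    have hγ : 0 < gap ε0 := by
      have := hcon ε0
      simp only [gap]; linarith
    set δ := gap ε0 / (4 * d * (N + 1) + 1) with hδ
    have hden : (0 : ℝ) < 4 * d * (N + 1) + 1 := by positivity
    have hδ0 : 0 < δ := div_pos hγ hden
    obtain ⟨ε, hε⟩ := weighted_pos v hv (fun t => w t + δ) (fun t => by linarith [hw t]) hd
    have h1 : ∑ t ∈ Finset.range (N + 1), w t * ‖pre v ε t‖ ^ 2
        ≤ ∑ t ∈ Finset.range (N + 1), (w t + δ) * ‖pre v ε t‖ ^ 2 := by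
      refine Finset.sum_le_sum fun t _ => ?_
      have := sq_nonneg ‖pre v ε t‖
      nlinarith
    have h2 : ∑ t ∈ Finset.range (N + 1), (w t + δ) = W + (N + 1) * δ := by
      rw [Finset.sum_add_distrib]
      simp [hW]
    have h3 : gap ε0 ≤ gap ε := hmin ε (Finset.mem_univ _)
    have h4 : δ * (4 * d * (N + 1) + 1) = gap ε0 := by
      rw [hδ]; field_simp
    rw [h2] at hε
    simp only [gap] at h3 h4 hγ
    nlinarith

/-- A random signing all of whose prefix sums have second moment at most `4 d`. -/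
theorem distribution (v : Fin N → EuclideanSpace ℝ (Fin d)) (hv : ∀ i, ‖v i‖ ≤ 1) :
    ∃ p : (Fin N → ℤˣ) → ℝ, (∀ ε, 0 ≤ p ε) ∧ ∑ ε, p ε = 1 ∧
      ∀ k ≤ N, ∑ ε, p ε * ‖pre v ε k‖ ^ 2 ≤ 4 * d := by
  classical
  obtain ⟨p, hp0, hp1, hp⟩ := minimax_finite
    (fun (ε : Fin N → ℤˣ) (t : Fin (N + 1)) => ‖pre v ε (t : ℕ)‖ ^ 2) (4 * d) (by
      intro w hw
      obtain ⟨ε, hε⟩ := weighted v hv (fun t => if h : t < N + 1 then w ⟨t, h⟩ else 0) (by
        intro t
        split_ifs
        · exact hw _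
        · exact le_rfl)
      refine ⟨ε, ?_⟩
      rw [Finset.sum_range, Finset.sum_range] at hε
      have e1 : ∀ t : Fin (N + 1), (if h : (t : ℕ) < N + 1 then w ⟨t, h⟩ else 0) = w t := by
        intro t
        rw [dif_pos t.2]
      simp_rw [e1] at hε
      exact hε)
  exact ⟨p, hp0, hp1, fun k hk => hp ⟨k, by omega⟩⟩

/-- All but an `η`-fraction of the prefix sums have squared norm at most `4 d / η`. -/
theorem most_times (v : Fin N → EuclideanSpace ℝ (Fin d)) (hv : ∀ i, ‖v i‖ ≤ 1) (η : ℝ)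
    (hη : 0 < η) :
    ∃ ε : Fin N → ℤˣ,
      (((Finset.range (N + 1)).filter (fun t => 4 * d / η < ‖pre v ε t‖ ^ 2)).card : ℝ)
        ≤ η * (N + 1) := by
  classical
  obtain ⟨ε, hε⟩ := weighted v hv (fun _ => 1) (fun _ => zero_le_one)
  refine ⟨ε, ?_⟩
  simp only [one_mul, Finset.sum_const, Finset.card_range, nsmul_eq_mul, mul_one] at hε
  set B := (Finset.range (N + 1)).filter (fun t => 4 * d / η < ‖pre v ε t‖ ^ 2) with hB
  rcases Nat.eq_zero_or_pos d with hd | hd
  · subst hd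
    have : B = ∅ := by
      rw [hB, Finset.filter_eq_empty_iff]
      intro t _
      have : pre v ε t = 0 := Subsingleton.elim _ _
      rw [this]
      simp
    rw [this]
    simp only [Finset.card_empty, Nat.cast_zero]
    positivity
  · have hd' : (0 : ℝ) < d := by exact_mod_cast hd
    have h1 : (B.card : ℝ) * (4 * d / η) ≤ ∑ t ∈ Finset.range (N + 1), ‖pre v ε t‖ ^ 2 := by
      calc (B.card : ℝ) * (4 * d / η) = ∑ _t ∈ B, (4 * d / η : ℝ) := by simp
        _ ≤ ∑ t ∈ B, ‖pre v ε t‖ ^ 2 := by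
            refine Finset.sum_le_sum fun t ht => ?_
            rw [hB, Finset.mem_filter] at ht
            exact ht.2.le
        _ ≤ ∑ t ∈ Finset.range (N + 1), ‖pre v ε t‖ ^ 2 :=
            Finset.sum_le_sum_of_subset_of_nonneg (Finset.filter_subset _ _)
              (fun _ _ _ => sq_nonneg _)
    have h2 : (B.card : ℝ) * (4 * d / η) ≤ 4 * d * ((N : ℝ) + 1) := by
      refine le_trans h1 ?_
      push_cast at hε
      exact hε
    have h3 : (B.card : ℝ) * (4 * d / η) = (B.card : ℝ) / η * (4 * d) := by ring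
    rw [h3, mul_comm (4 * (d : ℝ))] at h2
    have h4 := le_of_mul_le_mul_right h2 (by positivity : (0 : ℝ) < 4 * d)
    rw [div_le_iff₀ hη] at h4
    linarith

/-- Vector colouring: the semidefinite relaxation of the prefix problem has value at most
`sqrt d`, for all prefixes simultaneously. -/
theorem vector_colouring (v : Fin N → EuclideanSpace ℝ (Fin d)) (hv : ∀ i, ‖v i‖ ≤ 1) :
    ∃ a : Fin N → EuclideanSpace ℝ (Fin N), (∀ i, ‖a i‖ = 1) ∧ ∀ k ≤ N,
      (∀ θ : EuclideanSpace ℝ (Fin d),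
        ‖∑ i : Fin N, if (i : ℕ) < k then ⟪v i, θ⟫_ℝ • a i else 0‖ ≤ ‖θ‖) ∧
      ∑ i : Fin N, ∑ j : Fin N,
        (if (i : ℕ) < k ∧ (j : ℕ) < k then ⟪a i, a j⟫_ℝ * ⟪v i, v j⟫_ℝ else 0) ≤ d := by
  classical
  obtain ⟨a, ha1, -, ha3⟩ := stage v hv N le_rfl
  refine ⟨a, ha1, fun k hk => ⟨fun θ => ha3 k hk θ, ?_⟩⟩
  have hsum : ∑ l : Fin d, ‖Sop v a k (EuclideanSpace.single l 1)‖ ^ 2 ≤ d := by
    calc ∑ l : Fin d, ‖Sop v a k (EuclideanSpace.single l 1)‖ ^ 2 ≤ ∑ _l : Fin d, (1 : ℝ) := by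
          refine Finset.sum_le_sum fun l _ => ?_
          have h := ha3 k hk (EuclideanSpace.single l 1)
          rw [PiLp.norm_single, norm_one] at h
          have := norm_nonneg (Sop v a k (EuclideanSpace.single l 1))
          nlinarith
      _ = d := by simp
  refine le_trans (le_of_eq ?_) hsum
  have hexp : ∀ l : Fin d, ‖Sop v a k (EuclideanSpace.single l 1)‖ ^ 2
      = ∑ i : Fin N, ∑ j : Fin N,
        (if (i : ℕ) < k ∧ (j : ℕ) < k then ⟪a i, a j⟫_ℝ * (v i l * v j l) else 0) := by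
    intro l
    rw [← real_inner_self_eq_norm_sq]
    unfold Sop
    rw [sum_inner]
    refine Finset.sum_congr rfl fun i _ => ?_
    rw [inner_sum]
    refine Finset.sum_congr rfl fun j _ => ?_
    by_cases hi : (i : ℕ) < k <;> by_cases hj : (j : ℕ) < k
    · simp only [hi, hj, if_true, and_self, inner_smul_left, inner_smul_right,
        EuclideanSpace.inner_single_right]
      simp
      ring
    · simp [hi, hj]
    · simp [hi, hj]
    · simp [hi, hj]
  simp_rw [hexp]
  rw [Finset.sum_comm (s := (Finset.univ : Finset (Fin d)))]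
  refine Finset.sum_congr rfl fun i _ => ?_
  rw [Finset.sum_comm (s := (Finset.univ : Finset (Fin d)))]
  refine Finset.sum_congr rfl fun j _ => ?_
  split_ifs
  · rw [← Finset.mul_sum]
    congr 1
    rw [PiLp.inner_apply]
    refine Finset.sum_congr rfl fun l _ => ?_
    simp [mul_comm]
  · simp

end Vale.Agent.P262.Avg
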