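import Mathlib

namespace Vale.Agent.P262.Avg

open scoped InnerProductSpace

/-- Hilbert-Schmidt averaging: on a subspace `K` of dimension `k > 0` some nonzero vector `y`
satisfies `k * ‖T y‖² ≤ (∑ i, ‖T (b i)‖²) * ‖y‖²`. -/
theorem exists_small_of_hs {E H : Type*} [NormedAddCommGroup E] [InnerProductSpace ℝ E]
    [FiniteDimensional ℝ E] [NormedAddCommGroup H] [InnerProductSpace ℝ H]
    [FiniteDimensional ℝ H] {ι : Type*} [Fintype ι] (b : OrthonormalBasis ι ℝ E)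
    (T : E →ₗ[ℝ] H) (K : Submodule ℝ E) (hK : 0 < Module.finrank ℝ K) :
    ∃ y ∈ K, y ≠ 0 ∧
      (Module.finrank ℝ K : ℝ) * ‖T y‖ ^ 2 ≤ (∑ i, ‖T (b i)‖ ^ 2) * ‖y‖ ^ 2 := by
  classical
  set k := Module.finrank ℝ K with hk
  let f := stdOrthonormalBasis ℝ K
  let h := stdOrthonormalBasis ℝ H
  have hf : Orthonormal ℝ (fun j => ((f j : K) : E)) := by
    have := f.orthonormal
    exact this.comp_linearIsometry K.subtypeₗᵢ
  let Ta := LinearMap.adjoint T
  have key : ∀ x : E, ‖T x‖ ^ 2 = ∑ l, ⟪Ta (h l), x⟫_ℝ ^ 2 := by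
    intro x
    rw [← h.sum_sq_norm_inner_right (T x)]
    refine Finset.sum_congr rfl fun l _ => ?_
    rw [LinearMap.adjoint_inner_left]
    simp [Real.norm_eq_abs, sq_abs]
  have h1 : ∑ j, ‖T (f j : E)‖ ^ 2 ≤ ∑ i, ‖T (b i)‖ ^ 2 := by
    simp_rw [key]
    rw [Finset.sum_comm, Finset.sum_comm (s := (Finset.univ : Finset ι))]
    refine Finset.sum_le_sum fun l _ => ?_
    have hb : ∑ i, ⟪Ta (h l), b i⟫_ℝ ^ 2 = ‖Ta (h l)‖ ^ 2 := by
      rw [← b.sum_sq_norm_inner_left (Ta (h l))]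
      refine Finset.sum_congr rfl fun i _ => ?_
      simp [Real.norm_eq_abs, sq_abs]
    rw [hb]
    have := hf.sum_inner_products_le (Ta (h l)) (s := Finset.univ)
    refine le_trans (le_of_eq ?_) this
    refine Finset.sum_congr rfl fun i _ => ?_
    rw [real_inner_comm]
    simp [Real.norm_eq_abs, sq_abs]
  have hne : (Finset.univ : Finset (Fin k)).Nonempty := by
    have : Nonempty (Fin k) := ⟨⟨0, hK⟩⟩
    exact Finset.univ_nonempty
  obtain ⟨j, -, hj⟩ : ∃ j ∈ (Finset.univ : Finset (Fin k)),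
      ‖T (f j : E)‖ ^ 2 ≤ (∑ i, ‖T (b i)‖ ^ 2) / k := by
    apply Finset.exists_le_of_sum_le hne
    have hk0 : (k : ℝ) ≠ 0 := by exact_mod_cast hK.ne'
    simp only [Finset.sum_const, Finset.card_univ, Fintype.card_fin, nsmul_eq_mul]
    rw [mul_div_cancel₀ _ hk0]
    exact h1
  have hnorm : ‖((f j : K) : E)‖ = 1 := by
    exact hf.1 j
  refine ⟨(f j : E), (f j).2, ?_, ?_⟩
  · intro h0
    rw [h0] at hnorm
    simp at hnorm
  · rw [hnorm]
    have hk0 : (0 : ℝ) < k := by exact_mod_cast hK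
    rw [le_div_iff₀ hk0] at hj
    nlinarith [hj]

end Vale.Agent.P262.Avg
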