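import Mathlib

namespace Vale.Agent.P262.Avg

variable {N : ℕ}

/-- Moving from a point of the cube along `u` (supported on the non-frozen coordinates) one hits
the boundary at some positive time. -/
theorem hit (x u : Fin N → ℝ) (hx : ∀ i, |x i| ≤ 1) (hu : u ≠ 0)
    (hsupp : ∀ i, |x i| = 1 → u i = 0) :
    ∃ s : ℝ, 0 < s ∧ (∀ i, |x i + s * u i| ≤ 1) ∧ ∃ i, |x i| < 1 ∧ |x i + s * u i| = 1 := by
  classical
  set I : Finset (Fin N) := Finset.univ.filter (fun i => u i ≠ 0) with hI
  have hIne : I.Nonempty := by
    by_contra h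
    rw [Finset.not_nonempty_iff_eq_empty] at h
    apply hu
    funext i
    by_contra hi
    have hi' : u i ≠ 0 := hi
    have : i ∈ I := by simp [hI, hi']
    rw [h] at this
    simp at this
  have hlt : ∀ i ∈ I, |x i| < 1 := by
    intro i hi
    have hui : u i ≠ 0 := by simpa [hI] using hi
    rcases lt_or_eq_of_le (hx i) with h | h
    · exact h
    · exact absurd (hsupp i h) hui
  -- hitting time of coordinate i
  let r : Fin N → ℝ := fun i => if 0 < u i then (1 - x i) / u i else (1 + x i) / (-u i)
  obtain ⟨i0, hi0, hmin⟩ := Finset.exists_min_image I r hIne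
  have hrpos : ∀ i ∈ I, 0 < r i := by
    intro i hi
    have hui : u i ≠ 0 := by simpa [hI] using hi
    have h1 := hlt i hi
    rw [abs_lt] at h1
    rcases lt_or_gt_of_ne hui with h | h
    · simp only [r, if_neg (not_lt.mpr h.le)]
      exact div_pos (by linarith [h1.1]) (by linarith)
    · simp only [r, if_pos h]
      exact div_pos (by linarith [h1.2]) h
  refine ⟨r i0, hrpos i0 hi0, ?_, i0, hlt i0 hi0, ?_⟩
  · intro i
    by_cases hui : u i = 0
    · simpa [hui] using hx i
    · have hi : i ∈ I := by simp [hI, hui]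
      have hle := hmin i hi
      have h0 := (hrpos i0 hi0).le
      have h1 := hlt i hi
      rw [abs_lt] at h1
      rw [abs_le]
      rcases lt_or_gt_of_ne hui with h | h
      · have hr : r i = (1 + x i) / (-u i) := by
          simp only [r, if_neg (not_lt.mpr h.le)]
        rw [hr, le_div_iff₀ (by linarith)] at hle
        constructor
        · nlinarith
        · nlinarith
      · have hr : r i = (1 - x i) / (u i) := by
          simp only [r, if_pos h]
        rw [hr, le_div_iff₀ h] at hle
        constructor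
        · nlinarith
        · nlinarith
  · have hui : u i0 ≠ 0 := by simpa [hI] using hi0
    rcases lt_or_gt_of_ne hui with h | h
    · have hr : r i0 = (1 + x i0) / (-u i0) := by
        simp only [r, if_neg (not_lt.mpr h.le)]
      have : x i0 + r i0 * u i0 = -1 := by
        rw [hr]; field_simp; ring
      rw [this]; simp
    · have hr : r i0 = (1 - x i0) / (u i0) := by
        simp only [r, if_pos h]
      have : x i0 + r i0 * u i0 = 1 := by
        rw [hr]; field_simp; ring
      rw [this]; simp

/-- If `F` is a concave quadratic along the line `x + s u`, one can move to the boundary of the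
cube, freezing a new coordinate, without increasing `F`. -/
theorem move (F : (Fin N → ℝ) → ℝ) (x u : Fin N → ℝ) (hx : ∀ i, |x i| ≤ 1) (hu : u ≠ 0)
    (hsupp : ∀ i, |x i| = 1 → u i = 0) (b c : ℝ) (hc : c ≤ 0)
    (hF : ∀ s : ℝ, F (x + s • u) = F x + s * b + s ^ 2 * c) :
    ∃ s : ℝ, (∀ i, |x i + s * u i| ≤ 1) ∧ (∃ i, |x i| < 1 ∧ |x i + s * u i| = 1) ∧
      F (x + s • u) ≤ F x := by
  rcases le_total b 0 with hb | hb
  · obtain ⟨s, hs, h1, h2⟩ := hit x u hx hu hsupp
    refine ⟨s, h1, h2, ?_⟩
    rw [hF]
    nlinarith [mul_nonneg hs.le (neg_nonneg.mpr hb), mul_nonneg (sq_nonneg s) (neg_nonneg.mpr hc)]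
  · obtain ⟨s, hs, h1, h2⟩ := hit x (-u) hx (neg_ne_zero.mpr hu)
      (fun i hi => by simp [hsupp i hi])
    refine ⟨-s, ?_, ?_, ?_⟩
    · intro i
      have := h1 i
      simpa using this
    · obtain ⟨i, hi1, hi2⟩ := h2
      exact ⟨i, hi1, by simpa using hi2⟩
    · rw [hF]
      nlinarith [mul_nonneg hs.le hb, mul_nonneg (sq_nonneg s) (neg_nonneg.mpr hc)]

end Vale.Agent.P262.Avg
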