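import Vale.Agent.P262.Avg.Final

namespace Vale.Agent.P262.Avg

open Vale.Agent.P262
open scoped InnerProductSpace

variable {d N : ℕ}

/-- the `k`-th sum of the rearranged family `v ∘ π` -/
noncomputable def ps (v : Fin N → EuclideanSpace ℝ (Fin d)) (π : Equiv.Perm (Fin N)) (k : ℕ) :
    EuclideanSpace ℝ (Fin d) :=
  ∑ i : Fin N, if (i : ℕ) < k then v (π i) else 0

/-- sum of the `+` elements before `k` -/
noncomputable def Ap (u : Fin N → EuclideanSpace ℝ (Fin d)) (ε : Fin N → ℤˣ) (k : ℕ) :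
    EuclideanSpace ℝ (Fin d) :=
  ∑ i : Fin N, if (i : ℕ) < k ∧ ε i = 1 then u i else 0

/-- sum of the `-` elements before `k` -/
noncomputable def Bm (u : Fin N → EuclideanSpace ℝ (Fin d)) (ε : Fin N → ℤˣ) (k : ℕ) :
    EuclideanSpace ℝ (Fin d) :=
  ∑ i : Fin N, if (i : ℕ) < k ∧ ε i = -1 then u i else 0

lemma Ap_add_Bm (u : Fin N → EuclideanSpace ℝ (Fin d)) (ε : Fin N → ℤˣ) (k : ℕ) :
    Ap u ε k + Bm u ε k = ps u 1 k := by
  unfold Ap Bm ps
  rw [← Finset.sum_add_distrib]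
  refine Finset.sum_congr rfl fun i _ => ?_
  rcases Int.units_eq_one_or (ε i) with h | h <;> by_cases hk : (i : ℕ) < k <;> simp [h, hk]

lemma Ap_sub_Bm (u : Fin N → EuclideanSpace ℝ (Fin d)) (ε : Fin N → ℤˣ) (k : ℕ) :
    Ap u ε k - Bm u ε k = pre u ε k := by
  unfold Ap Bm pre
  rw [← Finset.sum_sub_distrib]
  refine Finset.sum_congr rfl fun i _ => ?_
  rcases Int.units_eq_one_or (ε i) with h | h <;> by_cases hk : (i : ℕ) < k <;> simp [h, hk]

lemma sq_Ap_Bm (u : Fin N → EuclideanSpace ℝ (Fin d)) (ε : Fin N → ℤˣ) (k : ℕ) :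
    ‖Ap u ε k‖ ^ 2 + ‖Bm u ε k‖ ^ 2 = (‖ps u 1 k‖ ^ 2 + ‖pre u ε k‖ ^ 2) / 2 := by
  rw [← Ap_add_Bm u ε k, ← Ap_sub_Bm u ε k, norm_add_sq_real, norm_sub_sq_real]
  ring

/-- the sorting key: `+` elements in increasing order, then `-` elements in decreasing order -/
def key (ε : Fin N → ℤˣ) (i : Fin N) : ℕ := if ε i = 1 then (i : ℕ) else 2 * N - (i : ℕ)

lemma key_inj (ε : Fin N → ℤˣ) : Function.Injective (key ε) := by
  intro i j h
  unfold key at h
  have hi := i.2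
  have hj := j.2
  apply Fin.ext
  split_ifs at h <;> omega

/-- Chobanyan transference in quadratic mean. -/
lemma transfer (u : Fin N → EuclideanSpace ℝ (Fin d)) (hu : ∑ i, u i = 0) (ε : Fin N → ℤˣ) :
    ∃ τ : Equiv.Perm (Fin N), ∑ k ∈ Finset.range (N + 1), ‖ps u τ k‖ ^ 2
      ≤ (∑ k ∈ Finset.range (N + 1), ‖ps u 1 k‖ ^ 2
          + ∑ k ∈ Finset.range (N + 1), ‖pre u ε k‖ ^ 2) / 2 := by
  classical
  set τ := Tuple.sort (key ε) with hτ
  have hmono : StrictMono (key ε ∘ τ) :=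
    (Tuple.monotone_sort (key ε)).strictMono_of_injective ((key_inj ε).comp τ.injective)
  refine ⟨τ, ?_⟩
  -- value of the (j+1)-st sum
  have hval : ∀ j : Fin N, ps u τ ((j : ℕ) + 1)
      = if ε (τ j) = 1 then Ap u ε ((τ j : ℕ) + 1) else - Bm u ε (τ j : ℕ) := by
    intro j
    have h1 : ps u τ ((j : ℕ) + 1) = ∑ i : Fin N, if key ε i ≤ key ε (τ j) then u i else 0 := by
      unfold ps
      rw [← Equiv.sum_comp τ (fun i => if key ε i ≤ key ε (τ j) then u i else 0)]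
      refine Finset.sum_congr rfl fun i _ => ?_
      have : ((i : ℕ) < (j : ℕ) + 1) ↔ key ε (τ i) ≤ key ε (τ j) := by
        rw [Nat.lt_succ_iff]
        exact (hmono.le_iff_le (a := i) (b := j)).symm.trans Iff.rfl |>.symm.symm
      simp only [this]
    rw [h1]
    have hjN := (τ j).2
    split_ifs with hs
    · unfold Ap
      refine Finset.sum_congr rfl fun i _ => ?_
      have hiN := i.2
      have : key ε i ≤ key ε (τ j) ↔ ((i : ℕ) < (τ j : ℕ) + 1 ∧ ε i = 1) := by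
        unfold key
        rw [if_pos hs]
        by_cases hi : ε i = 1
        · simp [hi]
        · simp only [hi, if_false, and_false, iff_false]
          omega
      simp only [this]
    · have hs' : ε (τ j) = -1 := (Int.units_eq_one_or _).resolve_left hs
      have h2 : ∀ i : Fin N, (if key ε i ≤ key ε (τ j) then u i else 0)
          = u i - (if (i : ℕ) < (τ j : ℕ) ∧ ε i = -1 then u i else 0) := by
        intro i
        have hiN := i.2
        have : key ε i ≤ key ε (τ j) ↔ ¬ ((i : ℕ) < (τ j : ℕ) ∧ ε i = -1) := by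
          unfold key
          rw [if_neg hs]
          rcases Int.units_eq_one_or (ε i) with hi | hi
          · have hne : (1 : ℤˣ) ≠ -1 := by decide
            simp only [hi, if_true, hne, and_false, not_false_eq_true, iff_true]
            omega
          · have hne : (-1 : ℤˣ) ≠ 1 := by decide
            simp only [hi, hne, if_false, and_true, not_lt]
            omega
        by_cases hc : (i : ℕ) < (τ j : ℕ) ∧ ε i = -1
        · rw [if_neg (by rw [this]; exact not_not.mpr hc), if_pos hc, sub_self]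
        · rw [if_pos (this.mpr hc), if_neg hc, sub_zero]
      simp_rw [h2]
      rw [Finset.sum_sub_distrib, hu, zero_sub]
      rfl
  have h0 : ps u τ 0 = 0 := by simp [ps]
  have hsum : ∑ k ∈ Finset.range (N + 1), ‖ps u τ k‖ ^ 2
      = ∑ i : Fin N, (if ε i = 1 then ‖Ap u ε ((i : ℕ) + 1)‖ ^ 2 else ‖Bm u ε (i : ℕ)‖ ^ 2) := by
    rw [Finset.sum_range_succ', h0, norm_zero, Finset.sum_range]
    simp only [ne_eq, OfNat.ofNat_ne_zero, not_false_eq_true, zero_pow, add_zero]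
    rw [← Equiv.sum_comp τ
      (fun i => if ε i = 1 then ‖Ap u ε ((i : ℕ) + 1)‖ ^ 2 else ‖Bm u ε (i : ℕ)‖ ^ 2)]
    refine Finset.sum_congr rfl fun j _ => ?_
    rw [hval j]
    split_ifs
    · rfl
    · rw [norm_neg]
  rw [hsum]
  have hle : ∑ i : Fin N, (if ε i = 1 then ‖Ap u ε ((i : ℕ) + 1)‖ ^ 2 else ‖Bm u ε (i : ℕ)‖ ^ 2)
      ≤ ∑ k ∈ Finset.range (N + 1), (‖Ap u ε k‖ ^ 2 + ‖Bm u ε k‖ ^ 2) := by
    calc ∑ i : Fin N, (if ε i = 1 then ‖Ap u ε ((i : ℕ) + 1)‖ ^ 2 else ‖Bm u ε (i : ℕ)‖ ^ 2)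
        ≤ ∑ i : Fin N, (‖Ap u ε ((i : ℕ) + 1)‖ ^ 2 + ‖Bm u ε (i : ℕ)‖ ^ 2) := by
          refine Finset.sum_le_sum fun i _ => ?_
          split_ifs
          · linarith [sq_nonneg ‖Bm u ε (i : ℕ)‖]
          · linarith [sq_nonneg ‖Ap u ε ((i : ℕ) + 1)‖]
      _ = ∑ k ∈ Finset.range N, ‖Ap u ε (k + 1)‖ ^ 2 + ∑ k ∈ Finset.range N, ‖Bm u ε k‖ ^ 2 := by
          rw [Finset.sum_add_distrib, Finset.sum_range, Finset.sum_range]
      _ ≤ ∑ k ∈ Finset.range (N + 1), ‖Ap u ε k‖ ^ 2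
            + ∑ k ∈ Finset.range (N + 1), ‖Bm u ε k‖ ^ 2 := by
          rw [Finset.sum_range_succ' (fun k => ‖Ap u ε k‖ ^ 2),
            Finset.sum_range_succ (fun k => ‖Bm u ε k‖ ^ 2)]
          linarith [sq_nonneg ‖Ap u ε 0‖, sq_nonneg ‖Bm u ε N‖]
      _ = ∑ k ∈ Finset.range (N + 1), (‖Ap u ε k‖ ^ 2 + ‖Bm u ε k‖ ^ 2) := by
          rw [Finset.sum_add_distrib]
  refine le_trans hle (le_of_eq ?_)
  simp_rw [sq_Ap_Bm]
  rw [← Finset.sum_div, Finset.sum_add_distrib]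

/-- Mean-square Steinitz: a zero-sum family in the unit ball can be ordered so that the average
squared norm of the sums of its initial segments is at most `4 d`. -/
theorem steinitz_mean (v : Fin N → EuclideanSpace ℝ (Fin d)) (hv : ∀ i, ‖v i‖ ≤ 1)
    (h0 : ∑ i, v i = 0) :
    ∃ π : Equiv.Perm (Fin N), ∑ k ∈ Finset.range (N + 1), ‖ps v π k‖ ^ 2 ≤ 4 * d * (N + 1) := by
  classical
  obtain ⟨π, -, hmin⟩ := Finset.exists_min_image (Finset.univ : Finset (Equiv.Perm (Fin N)))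
    (fun π => ∑ k ∈ Finset.range (N + 1), ‖ps v π k‖ ^ 2) Finset.univ_nonempty
  refine ⟨π, ?_⟩
  set u : Fin N → EuclideanSpace ℝ (Fin d) := fun i => v (π i) with hu
  have hu0 : ∑ i, u i = 0 := by
    rw [hu, Equiv.sum_comp π v, h0]
  obtain ⟨ε, hε⟩ := weighted u (fun i => hv _) (fun _ => 1) (fun _ => zero_le_one)
  simp only [one_mul, Finset.sum_const, Finset.card_range, nsmul_eq_mul, mul_one] at hε
  obtain ⟨τ, hτ⟩ := transfer u hu0 ε
  have e1 : ∀ k, ps u τ k = ps v (τ.trans π) k := by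
    intro k; rfl
  have e2 : ∀ k, ps u 1 k = ps v π k := by
    intro k; rfl
  simp_rw [e1, e2] at hτ
  have := hmin (τ.trans π) (Finset.mem_univ _)
  push_cast at hε
  linarith

end Vale.Agent.P262.Avg
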