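import Vale.Agent.P262.Avg.Dir
import Vale.Agent.P262.Avg.Move

namespace Vale.Agent.P262.Avg

open Vale.Agent.P262
open scoped InnerProductSpace

variable {d N : ℕ}

/-- the non-frozen coordinates below the frontier `m` -/
noncomputable def alive (m : ℕ) (x : Fin N → ℝ) : Finset (Fin N) :=
  Finset.univ.filter (fun i => (i : ℕ) < m ∧ |x i| < 1)

/-- the invariant of the walk -/
structure Inv (v : Fin N → EuclideanSpace ℝ (Fin d)) (w : ℕ → ℝ) (m : ℕ) (x : Fin N → ℝ) :
    Prop where
  cube : ∀ i, |x i| ≤ 1
  zero : ∀ i : Fin N, m ≤ (i : ℕ) → x i = 0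
  bal : ∑ i, x i • v i = 0
  pot : Psi v w m x ≤ 4 * d * ∑ t ∈ Finset.range (m + 1), w t

lemma reduce (v : Fin N → EuclideanSpace ℝ (Fin d)) (hv : ∀ i, ‖v i‖ ≤ 1) (w : ℕ → ℝ)
    (hw : ∀ t, 0 < w t) (hd : 1 ≤ d) (m : ℕ) :
    ∀ (n : ℕ) (x : Fin N → ℝ), (alive m x).card = n → Inv v w m x →
      ∃ x', Inv v w m x' ∧ (alive m x').card < 2 * d := by
  intro n
  induction n using Nat.strong_induction_on with
  | _ n ih =>
    intro x hn hx
    by_cases hlt : (alive m x).card < 2 * d
    · exact ⟨x, hx, hlt⟩
    · push Not at hlt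
      obtain ⟨u, hu0, husupp, hubal, huq⟩ := exists_dir v hv w hw m (alive m x)
        (fun i hi => by
          simp only [alive, Finset.mem_filter] at hi
          exact hi.2.1) hd hlt
      have hsupp : ∀ i, |x i| = 1 → u i = 0 := by
        intro i hi
        apply husupp
        simp only [alive, Finset.mem_filter, not_and, not_lt]
        intro _ _
        exact hi.ge
      obtain ⟨s, hs1, ⟨i0, hi0, hi0'⟩, hs3⟩ := move (Psi v w m) x u hx.cube hu0 hsupp
        (lin v w m x u) (qf v w m u - 2 * nf w m u) (by linarith) (fun s => Psi_line v w m x u s)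
      have hx' : Inv v w m (x + s • u) := by
        refine ⟨fun i => by simpa using hs1 i, ?_, ?_, le_trans hs3 hx.pot⟩
        · intro i hi
          have : u i = 0 := by
            apply husupp
            simp only [alive, Finset.mem_filter, not_and]
            intro _ h
            omega
          simp [hx.zero i hi, this]
        · simp only [Pi.add_apply, Pi.smul_apply, smul_eq_mul, add_smul, Finset.sum_add_distrib,
            hx.bal, zero_add, mul_smul]
          rw [← Finset.smul_sum, hubal, smul_zero]
      have hsub : alive m (x + s • u) ⊂ alive m x := by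
        rw [Finset.ssubset_iff_of_subset]
        · refine ⟨i0, ?_, ?_⟩
          · simp only [alive, Finset.mem_filter, Finset.mem_univ, true_and]
            refine ⟨?_, hi0⟩
            by_contra hcon
            push Not at hcon
            have h1 := hx'.zero i0 hcon
            have h2 : |x i0 + s * u i0| = 1 := hi0'
            have h3 : (x + s • u) i0 = x i0 + s * u i0 := by simp
            rw [← h3, h1] at h2
            simp at h2
          · simp only [alive, Finset.mem_filter, Finset.mem_univ, true_and, not_and, not_lt]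
            intro _
            have h3 : (x + s • u) i0 = x i0 + s * u i0 := by simp
            rw [h3, hi0']
        · intro i hi
          simp only [alive, Finset.mem_filter, Finset.mem_univ, true_and] at hi ⊢
          refine ⟨hi.1, ?_⟩
          rcases lt_or_eq_of_le (hx.cube i) with h | h
          · exact h
          · have h3 : (x + s • u) i = x i := by simp [hsupp i h]
            rw [h3, h] at hi
            exact absurd hi.2 (lt_irrefl _)
      have hcard := Finset.card_lt_card hsub
      exact ih _ (by omega) (x + s • u) rfl hx'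

lemma fpre_of_zero (v : Fin N → EuclideanSpace ℝ (Fin d)) (x : Fin N → ℝ) (k : ℕ)
    (hz : ∀ i : Fin N, k ≤ (i : ℕ) → x i = 0) : fpre v x k = ∑ i, x i • v i := by
  unfold fpre
  refine Finset.sum_congr rfl fun i _ => ?_
  split_ifs with h
  · rfl
  · simp [hz i (not_lt.mp h)]

lemma advance (v : Fin N → EuclideanSpace ℝ (Fin d)) (w : ℕ → ℝ) (hw : ∀ t, 0 < w t) (m : ℕ)
    (x : Fin N → ℝ) (hx : Inv v w m x) (hcard : (alive m x).card < 2 * d) :
    Inv v w (m + 1) x := by
  classical
  refine ⟨hx.cube, fun i hi => hx.zero i (by omega), hx.bal, ?_⟩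
  have h1 : Psi v w (m + 1) x = Psi v w m x + w (m + 1) * (‖fpre v x (m + 1)‖ ^ 2
      + 2 * ∑ i : Fin N, if (i : ℕ) < m + 1 then (1 - x i ^ 2) else 0) := by
    unfold Psi
    rw [Finset.sum_range_succ]
  have h2 : fpre v x (m + 1) = 0 := by
    rw [fpre_of_zero v x (m + 1) (fun i hi => hx.zero i (by omega)), hx.bal]
  have h3 : (∑ i : Fin N, if (i : ℕ) < m + 1 then (1 - x i ^ 2) else 0) ≤ 2 * (d : ℝ) := by
    have hle : ∀ i : Fin N, (if (i : ℕ) < m + 1 then (1 - x i ^ 2) else 0)
        ≤ (if i ∈ alive m x then (1 : ℝ) else 0) + (if (i : ℕ) = m then 1 else 0) := by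
      intro i
      have hc := hx.cube i
      have hsq : 0 ≤ x i ^ 2 := sq_nonneg _
      by_cases him : (i : ℕ) < m + 1
      · rw [if_pos him]
        by_cases hal : i ∈ alive m x
        · rw [if_pos hal]
          split_ifs <;> linarith
        · rw [if_neg hal]
          by_cases hm : (i : ℕ) = m
          · rw [if_pos hm]; linarith
          · rw [if_neg hm]
            simp only [alive, Finset.mem_filter, Finset.mem_univ, true_and, not_and, not_lt] at hal
            have h1 : |x i| = 1 := le_antisymm hc (hal (by omega))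
            have : x i ^ 2 = 1 := by rw [← sq_abs, h1]; norm_num
            linarith
      · rw [if_neg him]
        split_ifs <;> norm_num
    calc (∑ i : Fin N, if (i : ℕ) < m + 1 then (1 - x i ^ 2) else 0)
        ≤ ∑ i : Fin N, ((if i ∈ alive m x then (1 : ℝ) else 0) + (if (i : ℕ) = m then 1 else 0)) :=
          Finset.sum_le_sum fun i _ => hle i
      _ = (alive m x).card + ∑ i : Fin N, (if (i : ℕ) = m then (1 : ℝ) else 0) := by
          rw [Finset.sum_add_distrib]
          congr 1
          simp
      _ ≤ (alive m x).card + 1 := by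
          gcongr
          rw [← Finset.sum_filter]
          simp only [Finset.sum_const, nsmul_eq_mul, mul_one]
          have : (Finset.univ.filter (fun i : Fin N => (i : ℕ) = m)).card ≤ 1 := by
            rw [Finset.card_le_one]
            intro a ha b hb
            simp only [Finset.mem_filter, Finset.mem_univ, true_and] at ha hb
            exact Fin.ext (by omega)
          exact_mod_cast this
      _ ≤ 2 * d := by
          have : (alive m x).card + 1 ≤ 2 * d := hcard
          exact_mod_cast this
  rw [h1, h2, Finset.sum_range_succ _ (m + 1)]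
  have hp := hx.pot
  have hw1 := hw (m + 1)
  simp only [norm_zero]
  nlinarith [mul_le_mul_of_nonneg_left h3 hw1.le]

lemma walk (v : Fin N → EuclideanSpace ℝ (Fin d)) (hv : ∀ i, ‖v i‖ ≤ 1) (w : ℕ → ℝ)
    (hw : ∀ t, 0 < w t) (hd : 1 ≤ d) (m : ℕ) :
    ∃ x, Inv v w m x ∧ (alive m x).card < 2 * d := by
  induction m with
  | zero =>
    refine ⟨0, ⟨by simp, by simp, by simp, ?_⟩, ?_⟩
    · have : Psi v w 0 (0 : Fin N → ℝ) = 0 := by simp [Psi, fpre]
      rw [this]
      have := hw 0
      simp only [zero_add, Finset.range_one, Finset.sum_singleton]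
      positivity
    · have : alive 0 (0 : Fin N → ℝ) = ∅ := by simp [alive]
      rw [this]; simp; omega
  | succ m ih =>
    obtain ⟨x, hx, hc⟩ := ih
    exact reduce v hv w hw hd (m + 1) _ x rfl (advance v w hw m x hx hc)

/-- rounding the remaining coordinates one at a time -/
lemma finish (v : Fin N → EuclideanSpace ℝ (Fin d)) (hv : ∀ i, ‖v i‖ ≤ 1) (w : ℕ → ℝ)
    (hw : ∀ t, 0 < w t) (m : ℕ) :
    ∀ (n : ℕ) (x : Fin N → ℝ), (Finset.univ.filter (fun i => |x i| < 1)).card = n →
      (∀ i, |x i| ≤ 1) → ∃ x' : Fin N → ℝ, (∀ i, |x' i| = 1) ∧ Psi v w m x' ≤ Psi v w m x := by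
  classical
  intro n
  induction n using Nat.strong_induction_on with
  | _ n ih =>
    intro x hn hx
    by_cases hall : ∀ i, |x i| = 1
    · exact ⟨x, hall, le_rfl⟩
    · push Not at hall
      obtain ⟨j, hj⟩ := hall
      have hjlt : |x j| < 1 := lt_of_le_of_ne (hx j) hj
      have hu0 : (Pi.single j 1 : Fin N → ℝ) ≠ 0 := by
        intro h
        have := congrFun h j
        simp at this
      have hsupp : ∀ i, |x i| = 1 → (Pi.single j 1 : Fin N → ℝ) i = 0 := by
        intro i hi
        have : i ≠ j := fun h => hj (h ▸ hi)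
        exact Pi.single_eq_of_ne this _
      have hq : qf v w m (Pi.single j 1) - 2 * nf w m (Pi.single j 1 : Fin N → ℝ) ≤ 0 := by
        have h1 := qf_single_le v hv w (fun t => (hw t).le) m j
        have h2 : nf w m (Pi.single j 1 : Fin N → ℝ) = cw w m j := by
          rw [nf_eq, Finset.sum_eq_single j]
          · simp
          · intro i _ hi
            simp [Pi.single_eq_of_ne hi]
          · simp
        have h3 : 0 ≤ cw w m j := by
          unfold cw
          apply Finset.sum_nonneg
          intro t _
          split_ifs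
          · exact (hw t).le
          · exact le_rfl
        rw [h2]; linarith
      obtain ⟨s, hs1, ⟨i0, hi0, hi0'⟩, hs3⟩ := move (Psi v w m) x (Pi.single j 1) hx hu0 hsupp
        (lin v w m x (Pi.single j 1)) _ hq (fun s => Psi_line v w m x _ s)
      set x' := x + s • (Pi.single j 1 : Fin N → ℝ) with hx'
      have happ : ∀ i, x' i = x i + s * (Pi.single j 1 : Fin N → ℝ) i := by
        intro i; simp [hx']
      have hsub : Finset.univ.filter (fun i => |x' i| < 1) ⊂ Finset.univ.filter (fun i => |x i| < 1) := by
        rw [Finset.ssubset_iff_of_subset]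
        · refine ⟨i0, by simp [hi0], ?_⟩
          simp only [Finset.mem_filter, Finset.mem_univ, true_and, not_lt]
          rw [happ, hi0']
        · intro i hi
          simp only [Finset.mem_filter, Finset.mem_univ, true_and] at hi ⊢
          rcases lt_or_eq_of_le (hx i) with h | h
          · exact h
          · rw [happ, hsupp i h, mul_zero, add_zero, h] at hi
            exact absurd hi (lt_irrefl _)
      have hcard := Finset.card_lt_card hsub
      obtain ⟨x'', h1, h2⟩ := ih _ (by omega) x' rfl (fun i => by rw [happ]; exact hs1 i)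
      exact ⟨x'', h1, le_trans h2 hs3⟩

/-- Weighted mean-square theorem, positive weights. -/
theorem weighted_pos (v : Fin N → EuclideanSpace ℝ (Fin d)) (hv : ∀ i, ‖v i‖ ≤ 1) (w : ℕ → ℝ)
    (hw : ∀ t, 0 < w t) (hd : 1 ≤ d) :
    ∃ ε : Fin N → ℤˣ, ∑ t ∈ Finset.range (N + 1), w t * ‖pre v ε t‖ ^ 2
      ≤ 4 * d * ∑ t ∈ Finset.range (N + 1), w t := by
  classical
  obtain ⟨x, hx, -⟩ := walk v hv w hw hd N
  obtain ⟨x', h1, h2⟩ := finish v hv w hw N _ x rfl hx.cube
  refine ⟨fun i => if 0 < x' i then 1 else -1, ?_⟩
  have hs : sgn (fun i => if 0 < x' i then (1 : ℤˣ) else -1) = x' := by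
    funext i
    unfold sgn
    rcases abs_eq (zero_le_one' ℝ) |>.mp (h1 i) with h | h
    · simp [h]
    · have : ¬ (0 : ℝ) < -1 := by norm_num
      simp [h, this]
  have hP : Psi v w N x' = ∑ t ∈ Finset.range (N + 1), w t * ‖fpre v x' t‖ ^ 2 := by
    unfold Psi
    refine Finset.sum_congr rfl fun t _ => ?_
    have : (∑ i : Fin N, if (i : ℕ) < t then (1 - x' i ^ 2) else 0) = 0 := by
      apply Finset.sum_eq_zero
      intro i _
      have : x' i ^ 2 = 1 := by rw [← sq_abs, h1 i]; norm_num
      simp [this]
    rw [this]; ring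
  simp_rw [pre_eq_fpre, hs]
  rw [← hP]
  exact le_trans h2 hx.pot

end Vale.Agent.P262.Avg
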